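import Vale.Agent.N096.Defs
import Vale.Agent.N096.Amb
import Vale.Agent.N096.Tr

namespace Vale.Agent.Results.P096.A0Ambient

open Vale.Agent.N096

/-- **The unitary conjugating close von Neumann algebras need not lie in an ambient algebra.**
The distance `kk M N` is the Hausdorff distance of the closed unit balls.
On a separable Hilbert space there are a `II₁` factor `M` and a von Neumann algebra `P ⊇ M` such
that arbitrarily close to `M` there are `N ⊆ P` that no unitary of `P` conjugates `M` onto; no
invertible `s ∈ P` has `s N s⁻¹ ⊆ M`. -/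
theorem result :
    ∃ (H : Type) (_ : NormedAddCommGroup H) (_ : InnerProductSpace ℂ H) (_ : CompleteSpace H),
      TopologicalSpace.SeparableSpace H ∧ ∃ M P : VonNeumannAlgebra H, M ≤ P ∧ IsIIOne M ∧
        ∀ ε : ℝ, 0 < ε → ∃ N : VonNeumannAlgebra H, N ≤ P ∧ kk M N < ε ∧ NoConjIn P M N := by
  have : Countable F := FreeGroup.toWord_injective.countable
  have : TopologicalSpace.SeparableSpace (L2 F ℂ) := Vale.Agent.P096.R.separable_lp
  obtain ⟨ξ, nξ, nΩ⟩ := exists_unit
  refine ⟨HH, inferInstance, inferInstance, inferInstance, Vale.Agent.P096.R.separable_lp, MM, PP,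
    MM_le, ⟨fun z => factor, exists_indep, _, nΩ, fun x => separating nξ,
      fun x hx y hy => tracial ξ hx hy⟩, fun ε hε => ?_⟩
  obtain ⟨v, hv, nv, hP, h⟩ := not_conj (half_pos hε)
  refine ⟨_, hP, ?_, fun u uP ⟨hu, e⟩ => ?_, fun s hs ⟨t, st, ts, k⟩ => h s hs t st ts k⟩
  · have h1 := Vale.Agent.P096.H308.kkDist_le_of_conj hv (Vale.Agent.P096.H308.image_conj hv MM)
    rw [← hd_eq] at h1
    exact h1.trans_lt (by linarith)
  · refine h (star u) (star_mem uP) u (Unitary.star_mul_self_of_mem hu)
      (Unitary.mul_star_self_of_mem hu) fun x hx => ?_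
    rw [Vale.Agent.P096.H308.image_conj hu] at e
    exact (Vale.Agent.P096.H308.mem_conjVN hu _ x).1 (by rw [← SetLike.mem_coe, e]; exact hx)

end Vale.Agent.Results.P096.A0Ambient
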